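import Vale.Agent.P181.H872.Key

set_option autoImplicit false
set_option linter.unusedSectionVars false

/-!
# P181: the column property from `(E_k)` (helper872)

`(E_k)`: `φ(v₀; w₁ v₁; w₁ w₂ v₂; …; w₁ ⋯ w_(k-1) v_(k-1); w₁ ⋯ w_k v_i (all other slots)) = 0`,
for an `a`-linear form on forms of degree `a - 2`.
-/

namespace Vale.Agent.P181.H872

open Vale.Agent.P181 Vale.Agent.P181.H280 Vale.Agent.P181.H73 Vale.Agent.P181.H270 Finset

variable {A : Type*} [CommRing A] [Algebra ℂ A]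

/-- The relation `(E_(k+1))` for a form with `a` slots of degree `d`. -/
def RelE {a : ℕ} (L : Submodule ℂ A) (k d : ℕ) (φ : MultilinearMap ℂ (fun _ : Fin a => A) ℂ) :
    Prop :=
  ∀ w : Fin (k + 1) → A, (∀ i, w i ∈ L) → ∀ v : Fin a → A,
    (∀ p : Fin a, v p ∈ L ^ (d - min (p : ℕ) (k + 1))) →
    φ (fun p => (∏ i : Fin (k + 1), if (i : ℕ) < (p : ℕ) then w i else 1) * v p) = 0

lemma RelE.cur {a k d : ℕ} {L : Submodule ℂ A}
    {φ : MultilinearMap ℂ (fun _ : Fin (a + 1) => A) ℂ} (h : RelE L (k + 1) (d + 1) φ)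
    (V : A) (hV : V ∈ L ^ (d + 1)) (w : A) (hw : w ∈ L) : RelE L k d (cur φ V w) := by
  intro w' hw' v hv
  rw [cur_apply]
  rw [← h (Fin.cons w w') (by
    intro i
    refine Fin.cases hw (fun i => hw' i) i) (Fin.cons V v) (by
    intro p
    refine Fin.cases ?_ (fun p => ?_) p
    · rw [Fin.val_zero, Nat.zero_min, Nat.sub_zero]
      exact hV
    · have h1 : d + 1 - min ((p.succ : Fin (a + 1)) : ℕ) (k + 1 + 1) =
          d - min (p : ℕ) (k + 1) := by
        rw [Fin.val_succ]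
        omega
      rw [h1]
      exact hv p)]
  congr 1
  funext p
  refine Fin.cases ?_ (fun p => ?_) p
  · rw [Fin.cons_zero, Fin.cons_zero]
    have h1 : ∏ i : Fin (k + 1 + 1), (if (i : ℕ) < ((0 : Fin (a + 1)) : ℕ) then
        (Fin.cons w w' : Fin (k + 1 + 1) → A) i else 1) = 1 := by
      apply Finset.prod_eq_one
      intro i _
      rw [if_neg]
      rw [Fin.val_zero]
      omega
    rw [h1, one_mul]
  · rw [Fin.cons_succ, Fin.cons_succ]
    have h2 : (∏ i : Fin (k + 1 + 1), if (i : ℕ) < ((p.succ : Fin (a + 1)) : ℕ) then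
        (Fin.cons w w' : Fin (k + 1 + 1) → A) i else 1) =
        w * ∏ i : Fin (k + 1), if (i : ℕ) < (p : ℕ) then w' i else 1 := by
      rw [Fin.prod_univ_succ, if_pos (by
        rw [Fin.val_zero, Fin.val_succ]
        omega), Fin.cons_zero]
      congr 1
      apply Finset.prod_congr rfl
      intro i _
      rw [Fin.cons_succ, Fin.val_succ, Fin.val_succ]
      by_cases hi : (i : ℕ) < (p : ℕ)
      · rw [if_pos hi, if_pos (by omega)]
      · rw [if_neg hi, if_neg (by omega)]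
    rw [h2, mul_assoc]

/-- **From `(E_(k+1))` to the column property**, `a = c + k + 3` slots of degree `a - 2`. -/
theorem colZ (L : Submodule ℂ A) : ∀ (k c : ℕ) (_ : 1 ≤ c ∨ k = 0)
    (φ : MultilinearMap ℂ (fun _ : Fin (c + k + 3) => A) ℂ) (_ : ZInv φ)
    (_ : RelE L k (c + k + 1) φ), Col L (c + k) φ := by
  intro k
  induction k with
  | zero =>
    intro c _ φ hs hE
    apply cstmtZ L φ hs
    intro w hw v hv0 hv
    rw [← hE (fun _ => w) (fun _ => hw) v (by
      intro p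
      by_cases hp : p = 0
      · rw [hp, Fin.val_zero, Nat.zero_min, Nat.sub_zero]
        exact hv0
      · have h1 : (p : ℕ) ≠ 0 := fun h => hp (Fin.ext (by rw [h, Fin.val_zero]))
        have h2 : c + 0 + 1 - min (p : ℕ) (0 + 1) = c := by omega
        rw [h2]
        exact hv p hp)]
    congr 1
    funext p
    rw [Fin.prod_univ_one, Fin.val_zero]
    by_cases hp : p = 0
    · rw [if_pos hp, hp, if_neg (by rw [Fin.val_zero]; omega), one_mul]
    · have h1 : (p : ℕ) ≠ 0 := fun h => hp (Fin.ext (by rw [h, Fin.val_zero]))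
      rw [if_neg hp, if_pos (by omega)]
  | succ k ih =>
    intro c hc φ hs hE
    have hc1 : 1 ≤ c := hc.resolve_right (Nat.succ_ne_zero k)
    have h1 : Col L (c + k + 1) (show MultilinearMap ℂ (fun _ : Fin (c + k + 4) => A) ℂ from φ) := by
      apply key L (c := c + k) (by omega)
      · exact hs
      · intro V hV w hw
        exact ih c (Or.inl hc1) _ (ZInv.cur hs V w)
          (RelE.cur (d := c + k + 1) (show RelE L (k + 1) (c + k + 1 + 1) φ from hE) V hV w hw)
    exact h1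

/-- The same for `IsSgn`. -/
theorem colE (L : Submodule ℂ A) (k c : ℕ) (hc : 1 ≤ c ∨ k = 0) {m : ℕ}
    (φ : MultilinearMap ℂ (fun _ : Fin (c + k + 3) => A) ℂ) (hs : IsSgn m φ)
    (hE : ∀ w : Fin (k + 1) → A, (∀ i, w i ∈ L) → ∀ v : Fin (c + k + 3) → A,
      (∀ p : Fin (c + k + 3), v p ∈ L ^ (c + k + 1 - min (p : ℕ) (k + 1))) →
      φ (fun p => (∏ i : Fin (k + 1), if (i : ℕ) < (p : ℕ) then w i else 1) * v p) = 0) :
    Col L (c + k) φ :=
  colZ L k c hc φ (zInv_of_isSgn hs) hE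

/-- The same with `a` slots, `a ≥ k + 4` (or `k = 0`, `a ≥ 3`). -/
theorem colA (L : Submodule ℂ A) {a k j : ℕ} (ha : k + 4 ≤ a ∨ (k = 0 ∧ 3 ≤ a)) (hj : j + 3 = a)
    (φ : MultilinearMap ℂ (fun _ : Fin a => A) ℂ) (hs : ZInv φ) (hE : RelE L k (j + 1) φ) :
    Col L j φ := by
  obtain ⟨c, rfl⟩ : ∃ c, a = c + k + 3 := ⟨a - (k + 3), by omega⟩
  obtain rfl : j = c + k := by omega
  refine colZ L k c ?_ φ hs hE
  rcases ha with h | h
  · left
    omega
  · exact Or.inr h.1

end Vale.Agent.P181.H872
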