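import Vale.Agent.P181.H270.Exch4
import Vale.Agent.P181.H394.PLem

set_option autoImplicit false
set_option linter.unusedSectionVars false

/-!
# P181: the key lemma for the hybrid maps `A_k` (helper872)

If, for every `w` and every content `V₀` of one slot, the form `χ(V₀; w ·, …, w ·)` has the column
property, so has `χ`.  With the exchange lemma (`H270.cstmtZ`) as the base case this gives the column
property for every form with `φ(v₀; w₁ v₁; w₁ w₂ v₂; …; w₁ ⋯ w_k v_i) = 0`.
-/

namespace Vale.Agent.P181.H872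

open Vale.Agent.P181 Vale.Agent.P181.H280 Vale.Agent.P181.H73 Vale.Agent.P181.H270 Finset

variable {A : Type*} [CommRing A] [Algebra ℂ A]

/-- The zeros of the form are invariant under permutations of the slots. -/
def ZInv {a : ℕ} (φ : MultilinearMap ℂ (fun _ : Fin a => A) ℂ) : Prop :=
  ∀ (σ : Equiv.Perm (Fin a)) (P : Fin a → A), φ (fun i => P (σ i)) = 0 → φ P = 0

lemma zInv_of_isSgn {a κ : ℕ} {φ : MultilinearMap ℂ (fun _ : Fin a => A) ℂ} (hs : IsSgn κ φ) :
    ZInv φ := by
  intro σ P h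
  rw [hs σ P] at h
  refine (mul_eq_zero.1 h).resolve_left ?_
  apply pow_ne_zero
  rcases Int.units_eq_one_or (Equiv.Perm.sign σ) with h1 | h1 <;> rw [h1] <;> simp

/-- The form `u ↦ φ(V; w u_0, w u_1, …)`. -/
noncomputable def cur {a : ℕ} (φ : MultilinearMap ℂ (fun _ : Fin (a + 1) => A) ℂ) (V w : A) :
    MultilinearMap ℂ (fun _ : Fin a => A) ℂ :=
  (φ.curryLeft V).compLinearMap (fun _ => LinearMap.mulLeft ℂ w)

lemma cur_apply {a : ℕ} (φ : MultilinearMap ℂ (fun _ : Fin (a + 1) => A) ℂ) (V w : A)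
    (P : Fin a → A) : cur φ V w P = φ (Fin.cons V (fun i => w * P i)) := rfl

lemma ZInv.cur {a : ℕ} {φ : MultilinearMap ℂ (fun _ : Fin (a + 1) => A) ℂ} (h : ZInv φ)
    (V w : A) : ZInv (cur φ V w) := by
  intro σ P h1
  rw [cur_apply] at h1 ⊢
  apply h (Equiv.Perm.decomposeFin.symm (0, σ))
  rw [← h1]
  congr 1
  funext i
  refine Fin.cases ?_ (fun i => ?_) i
  · rw [Equiv.Perm.decomposeFin_symm_apply_zero]
    rfl
  · rw [Equiv.Perm.decomposeFin_symm_apply_succ, Equiv.swap_self]
    rfl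

/-- From the first two slots to all positions. -/
lemma col_of_core {M j : ℕ} (L : Submodule ℂ A) (φ : MultilinearMap ℂ (fun _ : Fin (M + 2) => A) ℂ)
    (hsgn : ZInv φ)
    (core : ∀ u ∈ L, ∀ v ∈ L ^ j, ∀ z : Fin M → A, (∀ i, z i ∈ L ^ (j + 1)) →
      φ (Fin.cons (u ^ (j + 1)) (Fin.cons (u * v) z)) = 0) : Col L j φ := by
  classical
  intro p q hpq u hu v hv P hP
  let σ : Equiv.Perm (Fin (M + 2)) :=
    Equiv.swap 0 p * Equiv.swap 1 (Equiv.swap 0 p q)
  have hσ0 : σ 0 = p := by
    show Equiv.swap 0 p (Equiv.swap 1 (Equiv.swap 0 p q) 0) = p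
    rw [Equiv.swap_apply_of_ne_of_ne Fin.zero_ne_one, Equiv.swap_apply_left]
    intro h
    apply hpq
    have h1 := congrArg (Equiv.swap 0 p) h
    rw [Equiv.swap_apply_self, Equiv.swap_apply_left] at h1
    exact h1
  have hσ1 : σ 1 = q := by
    show Equiv.swap 0 p (Equiv.swap 1 (Equiv.swap 0 p q) 1) = q
    rw [Equiv.swap_apply_left, Equiv.swap_apply_self]
  set P' := Function.update (Function.update P p (u ^ (j + 1))) q (u * v) with hP'
  have hP'mem : ∀ i, P' i ∈ L ^ (j + 1) := by
    intro i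
    by_cases hi : i = q
    · rw [hP', hi, Function.update_self, pow_succ']
      exact Submodule.mul_mem_mul hu hv
    · rw [hP', Function.update_of_ne hi]
      by_cases hi' : i = p
      · rw [hi', Function.update_self]
        exact Submodule.pow_mem_pow _ hu _
      · rw [Function.update_of_ne hi']
        exact hP i
  apply hsgn σ
  have h1 : (fun i => P' (σ i)) =
      Fin.cons (u ^ (j + 1)) (Fin.cons (u * v) (fun i : Fin M => P' (σ i.succ.succ))) := by
    funext i
    refine Fin.cases ?_ (fun i => ?_) i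
    · rw [hσ0, hP', Function.update_of_ne hpq, Function.update_self]
      rfl
    · refine Fin.cases ?_ (fun i => ?_) i
      · have h2 : (Fin.succ 0 : Fin (M + 2)) = 1 := rfl
        rw [h2, hσ1, hP', Function.update_self]
        rfl
      · rfl
  rw [h1]
  exact core u hu v hv _ (fun i => hP'mem _)

/-- The exchange, for fixed contents of the other slots. -/
lemma exchange' (L : Submodule ℂ A) {M : ℕ} (φ : MultilinearMap ℂ (fun _ : Fin (M + 3) => A) ℂ)
    (X : A) (z : Fin (M + 1) → A)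
    (h : ∀ w ∈ L, ∀ y ∈ L ^ M,
      φ (Fin.cons (w * y) (Fin.cons X (fun i => w * z i))) = 0)
    (w u : A) (hw : w ∈ L) (hu : u ∈ L)
    (h0 : φ (Fin.cons (w ^ (M + 1)) (Fin.cons X (fun i => u * z i))) = 0) :
    φ (Fin.cons (u ^ (M + 1)) (Fin.cons X (fun i => w * z i))) = 0 := by
  have main : ∀ β α : ℕ, α + β = M + 1 → E φ X w u z (w ^ α * u ^ β) α = 0 := by
    intro β
    induction β with
    | zero =>
      intro α hα
      rw [add_zero] at hα
      subst hα
      rw [pow_zero, mul_one, E_top]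
      exact h0
    | succ β ih =>
      intro α hα
      have h1 := ih (α + 1) (by omega)
      have hy0 : w ^ α * u ^ β ∈ L ^ M := by
        have h2 : L ^ M = L ^ α * L ^ β := by
          rw [← pow_add]
          congr 1
          omega
        rw [h2]
        exact Submodule.mul_mem_mul (Submodule.pow_mem_pow _ hw _) (Submodule.pow_mem_pow _ hu _)
      have h3 := E_step φ X w u z (w ^ α * u ^ β)
        (fun t => h (w + t • u) (L.add_mem hw (L.smul_mem t hu)) _ hy0) α
      have h4 : w * (w ^ α * u ^ β) = w ^ (α + 1) * u ^ β := by ring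
      have h5 : u * (w ^ α * u ^ β) = w ^ α * u ^ (β + 1) := by ring
      rw [h4, h5, h1, zero_add] at h3
      exact h3
  have h1 := main (M + 1) 0 (by omega)
  rw [pow_zero, one_mul, E_zero] at h1
  exact h1

/-- A linear form on forms of degree `k` which kills the `k`-th powers is zero. -/
lemma lin_zero_of_pow (L : Submodule ℂ A) (k : ℕ) (f : A →ₗ[ℂ] ℂ) (h : ∀ z ∈ L, f (z ^ k) = 0)
    (B : A) (hB : B ∈ L ^ k) : f B = 0 := by
  have h1 := pow_le_span_pow L k hB
  refine Submodule.span_induction (p := fun x _ => f x = 0) ?_ ?_ ?_ ?_ h1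
  · rintro x ⟨z, hz, rfl⟩
    exact h z hz
  · exact map_zero f
  · intro x y _ _ hx hy
    rw [map_add, hx, hy, add_zero]
  · intro c x _ hx
    rw [map_smul, hx, smul_zero]

/-- A bilinear form on forms of degree `δ + 1` with `g(x u^δ, u y) = 0` is zero (`δ ≥ 1`). -/
lemma bil_zero (L : Submodule ℂ A) (N : ℕ) (g : A →ₗ[ℂ] A →ₗ[ℂ] ℂ)
    (h : ∀ x ∈ L, ∀ u ∈ L, ∀ y ∈ L ^ (N + 1), g (x * u ^ (N + 1)) (u * y) = 0)
    (B C : A) (hB : B ∈ L ^ (N + 2)) (hC : C ∈ L ^ (N + 2)) : g B C = 0 := by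
  have h1 : ∀ z ∈ L, ∀ u ∈ L, ∀ y ∈ L ^ (N + 1), g (z ^ (N + 2)) (u * y) = 0 := by
    intro z hz u hu y hy
    have h2 := bil_pol (g.comp (LinearMap.mulLeft ℂ z)) z u y N (by
      intro t
      show g (z * (z + t • u) ^ (N + 1)) ((z + t • u) * y) = 0
      exact h z hz (z + t • u) (L.add_mem hz (L.smul_mem t hu)) y hy)
    have h3 : (g.comp (LinearMap.mulLeft ℂ z)) (u * z ^ N) (z * y) = 0 := by
      show g (z * (u * z ^ N)) (z * y) = 0
      have h4 : z * (u * z ^ N) = u * z ^ (N + 1) := by ring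
      rw [h4]
      exact h u hu z hz y hy
    rw [h3, mul_zero, zero_add] at h2
    have h5 : (g.comp (LinearMap.mulLeft ℂ z)) (z ^ (N + 1)) (u * y) =
        g (z ^ (N + 2)) (u * y) := by
      show g (z * z ^ (N + 1)) (u * y) = _
      rw [← pow_succ']
    rw [← h5]
    exact h2
  have h2 : ∀ z ∈ L, ∀ C ∈ L ^ (N + 2), g (z ^ (N + 2)) C = 0 := by
    intro z hz C hC
    rw [pow_succ' L] at hC
    refine Submodule.mul_induction_on hC ?_ ?_
    · intro u hu y hy
      exact h1 z hz u hu y hy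
    · intro x y hx hy
      rw [map_add, hx, hy, add_zero]
  exact lin_zero_of_pow L (N + 2) (g.flip C) (fun z hz => h2 z hz C hC) B hB

/-- **The key lemma.** -/
theorem key (L : Submodule ℂ A) {c : ℕ} (hc : 1 ≤ c)
    (φ : MultilinearMap ℂ (fun _ : Fin (c + 4) => A) ℂ) (hs : ZInv φ)
    (H : ∀ V ∈ L ^ (c + 2), ∀ w ∈ L, Col L c (cur φ V w)) : Col L (c + 1) φ := by
  classical
  have hD : ∀ w ∈ L, w ^ (c + 2) ∈ L ^ (c + 2) := fun w hw => Submodule.pow_mem_pow _ hw _
  -- (*) with the free slot first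
  have H0 : ∀ V ∈ L ^ (c + 2), ∀ w ∈ L, ∀ u ∈ L, ∀ v ∈ L ^ c, ∀ y ∈ L ^ (c + 1),
      ∀ r : Fin c → A, (∀ i, r i ∈ L ^ (c + 1)) →
      φ (Fin.cons V (Fin.cons (w * y)
        (fun i => w * (Fin.cons (u ^ (c + 1)) (Fin.cons (u * v) r) : Fin (c + 2) → A) i))) = 0 := by
    intro V hV w hw u hu v hv y hy r hr
    have h1 := H V hV w hw 1 2 (by
      intro h
      have h2 := congrArg Fin.val h
      have h3 : ((1 : Fin (c + 3)) : ℕ) = 1 := rfl
      have h4 : ((2 : Fin (c + 3)) : ℕ) = 2 := rfl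
      rw [h3, h4] at h2
      omega) u hu v hv
      (Fin.cons y (Fin.cons (u ^ (c + 1)) (Fin.cons (u * v) r)) : Fin (c + 3) → A) (by
        intro i
        refine Fin.cases hy (fun i => ?_) i
        refine Fin.cases (Submodule.pow_mem_pow _ hu _) (fun i => ?_) i
        refine Fin.cases ?_ (fun i => hr i) i
        show u * v ∈ L ^ (c + 1)
        rw [pow_succ']
        exact Submodule.mul_mem_mul hu hv)
    rw [cur_apply] at h1
    rw [← h1]
    congr 2
    funext i
    refine Fin.cases rfl (fun i => ?_) i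
    refine Fin.cases rfl (fun i => ?_) i
    refine Fin.cases rfl (fun i => ?_) i
    rfl
  -- (*) with the free slot second
  have H1 : ∀ V ∈ L ^ (c + 2), ∀ w ∈ L, ∀ u ∈ L, ∀ v ∈ L ^ c, ∀ y ∈ L ^ (c + 1),
      ∀ r : Fin c → A, (∀ i, r i ∈ L ^ (c + 1)) →
      φ (Fin.cons (w * y) (Fin.cons V
        (fun i => w * (Fin.cons (u ^ (c + 1)) (Fin.cons (u * v) r) : Fin (c + 2) → A) i))) = 0 := by
    intro V hV w hw u hu v hv y hy r hr
    apply hs (Equiv.swap 0 1)
    rw [← H0 V hV w hw u hu v hv y hy r hr]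
    congr 1
    funext p
    refine Fin.cases ?_ (fun i => ?_) p
    · rw [Equiv.swap_apply_left]
      rfl
    · refine Fin.cases ?_ (fun i => ?_) i
      · have h1 : (Fin.succ 0 : Fin (c + 4)) = 1 := rfl
        rw [h1, Equiv.swap_apply_right]
        rfl
      · rw [Equiv.swap_apply_of_ne_of_ne (Fin.succ_ne_zero _)]
        · rfl
        · intro h1
          have h2 : i.succ = 0 := Fin.succ_injective _ h1
          exact Fin.succ_ne_zero _ h2
  -- the exchange
  have Y2 : ∀ w ∈ L, ∀ V ∈ L ^ (c + 1), ∀ z ∈ L, ∀ u ∈ L, ∀ v ∈ L ^ c,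
      ∀ r : Fin c → A, (∀ i, r i ∈ L ^ (c + 1)) →
      φ (Fin.cons (w ^ (c + 2)) (Fin.cons (w * V)
        (fun i => z * (Fin.cons (u ^ (c + 1)) (Fin.cons (u * v) r) : Fin (c + 2) → A) i))) = 0 := by
    intro w hw V hV z hz u hu v hv r hr
    have hX : w * V ∈ L ^ (c + 2) := by
      rw [pow_succ']
      exact Submodule.mul_mem_mul hw hV
    exact exchange' L φ (w * V) _
      (fun s hs' y hy => H1 (w * V) hX s hs' u hu v hv y hy r hr) z w hz hw
      (H0 (z ^ (c + 2)) (hD z hz) w hw u hu v hv V hV r hr)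
  -- remove `z`
  have Y3 : ∀ w ∈ L, ∀ V ∈ L ^ (c + 1), ∀ u ∈ L, ∀ x ∈ L, ∀ y ∈ L ^ (c + 1),
      ∀ r : Fin c → A, (∀ i, r i ∈ L ^ (c + 2)) →
      φ (Fin.cons (w ^ (c + 2)) (Fin.cons (w * V)
        (Fin.cons (x * u ^ (c + 1)) (Fin.cons (u * y) r)))) = 0 := by
    intro w hw V hV u hu x hx y hy r hr
    let m : Fin (c + 2) → A := Fin.cons (u ^ (c + 1)) (Fin.cons u (fun _ => 1))
    let ψ : MultilinearMap ℂ (fun _ : Fin (c + 2) => A) ℂ :=
      ((φ.curryLeft (w ^ (c + 2))).curryLeft (w * V)).compLinearMap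
        (fun i => LinearMap.mulRight ℂ (m i))
    have hψ : ∀ P : Fin (c + 2) → A, ψ P =
        φ (Fin.cons (w ^ (c + 2)) (Fin.cons (w * V) (fun i => P i * m i))) := fun P => rfl
    let d : Fin (c + 2) → ℕ := Fin.cons 1 (Fin.cons (c + 1) (fun _ => c + 2))
    have h1 := H394.plem L d (by
      intro i
      refine Fin.cases ?_ (fun i => ?_) i
      · exact le_rfl
      · refine Fin.cases ?_ (fun i => ?_) i
        · show (((0 : Fin (c + 1)).succ : Fin (c + 2)) : ℕ) + 1 ≤ c + 1
          rw [Fin.val_succ, Fin.val_zero]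
          omega
        · show ((i.succ.succ : Fin (c + 2)) : ℕ) + 1 ≤ c + 2
          have := i.succ.succ.2
          omega) ψ (by
      intro z hz v hv
      rw [hψ]
      have h0 : v 0 ∈ (1 : Submodule ℂ A) := by
        have := hv 0
        rwa [show d 0 - 1 = 0 from rfl, pow_zero] at this
      obtain ⟨t, ht⟩ := Submodule.mem_one.1 h0
      have h2 := Y2 w hw V hV z hz u hu (v 1) (hv 1) (fun i => v i.succ.succ)
        (fun i => hv i.succ.succ)
      have h3 : (fun i => z * v i * m i) = Function.update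
          (fun i => z * (Fin.cons (u ^ (c + 1)) (Fin.cons (u * v 1) (fun i => v i.succ.succ)) :
            Fin (c + 2) → A) i) 0 (t • (z * u ^ (c + 1))) := by
        funext i
        refine Fin.cases ?_ (fun i => ?_) i
        · rw [Function.update_self, Algebra.smul_def, ht]
          show z * v 0 * u ^ (c + 1) = _
          ring
        · rw [Function.update_of_ne (Fin.succ_ne_zero _)]
          refine Fin.cases ?_ (fun i => ?_) i
          · show z * v 1 * u = z * (u * v 1)
            ring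
          · show z * v i.succ.succ * 1 = z * v i.succ.succ
            rw [mul_one]
      rw [h3]
      let Φ : MultilinearMap ℂ (fun _ : Fin (c + 2) => A) ℂ :=
        (φ.curryLeft (w ^ (c + 2))).curryLeft (w * V)
      show Φ _ = 0
      rw [MultilinearMap.map_update_smul]
      have h4 : Function.update
          (fun i => z * (Fin.cons (u ^ (c + 1)) (Fin.cons (u * v 1) (fun i => v i.succ.succ)) :
            Fin (c + 2) → A) i) 0 (z * u ^ (c + 1)) =
          (fun i => z * (Fin.cons (u ^ (c + 1)) (Fin.cons (u * v 1) (fun i => v i.succ.succ)) :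
            Fin (c + 2) → A) i) := by
        funext i
        refine Fin.cases ?_ (fun i => ?_) i
        · rw [Function.update_self]
          rfl
        · rw [Function.update_of_ne (Fin.succ_ne_zero _)]
      rw [h4]
      have h5 : Φ (fun i => z * (Fin.cons (u ^ (c + 1))
          (Fin.cons (u * v 1) (fun i => v i.succ.succ)) : Fin (c + 2) → A) i) = 0 := h2
      rw [h5, smul_zero]) (Fin.cons x (Fin.cons y r)) (by
      intro i
      refine Fin.cases ?_ (fun i => ?_) i
      · show x ∈ L ^ 1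
        rwa [pow_one]
      · refine Fin.cases hy (fun i => hr i) i)
    rw [hψ] at h1
    rw [← h1]
    congr 3
    funext i
    refine Fin.cases rfl (fun i => ?_) i
    refine Fin.cases ?_ (fun i => ?_) i
    · show u * y = y * u
      ring
    · show r i = r i * 1
      rw [mul_one]
  -- the end
  apply col_of_core (M := c + 2) L φ hs
  intro w hw V hV z hz
  let g : A →ₗ[ℂ] A →ₗ[ℂ] ℂ := bil φ
    (Fin.cons (w ^ (c + 2)) (Fin.cons (w * V) z) : Fin (c + 4) → A) 2 3 (by
      intro h
      have h2 := congrArg Fin.val h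
      have h3 : ((2 : Fin (c + 4)) : ℕ) = 2 := rfl
      have h4 : ((3 : Fin (c + 4)) : ℕ) = 3 := rfl
      rw [h3, h4] at h2
      omega)
  have hg : ∀ B C : A, g B C = φ (Fin.cons (w ^ (c + 2)) (Fin.cons (w * V)
      (Fin.cons B (Fin.cons C (fun i : Fin c => z i.succ.succ))))) := by
    intro B C
    show φ _ = φ _
    congr 1
    funext i
    refine Fin.cases rfl (fun i => ?_) i
    refine Fin.cases rfl (fun i => ?_) i
    refine Fin.cases rfl (fun i => ?_) i
    refine Fin.cases rfl (fun i => ?_) i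
    rfl
  have h1 := bil_zero L c g (by
    intro x hx u hu y hy
    rw [hg]
    exact Y3 w hw V hV u hu x hx y hy _ (fun i => hz _)) (z 0) (z 1) (hz 0) (hz 1)
  rw [hg] at h1
  rw [← h1]
  congr 3
  funext i
  refine Fin.cases rfl (fun i => ?_) i
  refine Fin.cases rfl (fun i => ?_) i
  rfl

end Vale.Agent.P181.H872
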