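import Vale.Agent.P181.H270.GenPlace
import Vale.Agent.P181.H73.End2
import Vale.Agent.P181.H872.ColE

set_option autoImplicit false
set_option linter.unusedSectionVars false

/-!
# P181: the staircase placement for `b = a + K` (helper872)

`K` distinguished particles, `K + 2` columns: two columns avoid all `D_κ`, and for `h = 1, …, K` one
column stands on the last `h` of the `D_κ` and avoids the slots `0, …, h - 1`.  The transfer is
forced, so the relation of the hybrid map gives `(E_K)`.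
-/

namespace Vale.Agent.P181.H872

open Vale.Agent.P181 Vale.Agent.P181.H280 Vale.Agent.P181.H73 Vale.Agent.P181.H270 Finset

variable {A : Type*} [CommRing A] [Algebra ℂ A]

/-- The staircase configuration. -/
def stC (a K : ℕ) (h : K + 2 ≤ a) : Cfg a K (K + 2) where
  om l i := if h1 : (i : ℕ) + 1 < (l : ℕ) then
    some ⟨K + 1 - (l : ℕ) + (i : ℕ), by have := l.2; omega⟩ else none
  nG l _ := ⟨(l : ℕ), by have := l.2; omega⟩
  nD l κ := ⟨(κ : ℕ) + (l : ℕ) - (K + 1), by have := l.2; have := κ.2; omega⟩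
  om_inj := by
    intro l i i' κ h1 h2
    split_ifs at h1 with h3
    split_ifs at h2 with h4
    have h5 := congrArg Fin.val (Option.some.inj (h1.trans h2.symm))
    simp only at h5
    exact Fin.ext (by omega)
  nG_inj := by
    intro l l' i _ _ h1
    have h5 := congrArg Fin.val h1
    simp only at h5
    exact Fin.ext h5
  nD_inj := by
    intro l l' i i' κ h1 h2 h6
    split_ifs at h1 with h3
    split_ifs at h2 with h4
    have h5 := congrArg Fin.val (Option.some.inj h1)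
    have h7 := congrArg Fin.val (Option.some.inj h2)
    have h8 := congrArg Fin.val h6
    simp only at h5 h7 h8
    have := l.2
    have := l'.2
    exact Fin.ext (by omega)

lemma stC_om_some {a K : ℕ} (h : K + 2 ≤ a) {l : Fin (K + 2)} {i : Fin a}
    (h1 : (i : ℕ) + 1 < (l : ℕ)) : (stC a K h).om l i =
      some ⟨K + 1 - (l : ℕ) + (i : ℕ), by have := l.2; omega⟩ := dif_pos h1

lemma stC_om_none {a K : ℕ} (h : K + 2 ≤ a) {l : Fin (K + 2)} {i : Fin a}
    (h1 : ¬ (i : ℕ) + 1 < (l : ℕ)) : (stC a K h).om l i = none := dif_neg h1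

lemma stC_stair {a K : ℕ} (h : K + 2 ≤ a) : (stC a K h).Stair := by
  intro κ
  have hκ := κ.2
  refine ⟨(Finset.univ : Finset (Fin (K + 1 - (κ : ℕ)))).map
    (Fin.castLEEmb (by omega : K + 1 - (κ : ℕ) ≤ K + 2)), ?_, ?_⟩
  · rw [Finset.card_map, Finset.card_univ, Fintype.card_fin]
    omega
  · intro l hl κ' hκ' i h1
    rw [Finset.mem_map] at hl
    obtain ⟨l', _, rfl⟩ := hl
    have hl' := l'.2
    have h2 : ((Fin.castLEEmb (by omega : K + 1 - (κ : ℕ) ≤ K + 2)) l' : Fin (K + 2)).val =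
      l'.val := rfl
    by_cases h3 : (i : ℕ) + 1 < (((Fin.castLEEmb
        (by omega : K + 1 - (κ : ℕ) ≤ K + 2)) l' : Fin (K + 2)) : ℕ)
    · rw [stC_om_some h h3] at h1
      have h4 := congrArg Fin.val (Option.some.inj h1)
      simp only at h4
      have h5 : (κ' : ℕ) ≤ (κ : ℕ) := hκ'
      omega
    · rw [stC_om_none h h3] at h1
      exact absurd h1 (by simp)

/-- An injective self-map of `Fin a` with `i ≤ f i` is the identity. -/
lemma eq_id_of_le {a : ℕ} (f : Fin a → Fin a) (hf : Function.Injective f)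
    (h : ∀ i, i ≤ f i) : ∀ i, f i = i := by
  have hb : Function.Bijective f := Finite.injective_iff_bijective.1 hf
  have h1 : ∑ i, ((f i : Fin a) : ℕ) = ∑ i : Fin a, (i : ℕ) :=
    Equiv.sum_comp (Equiv.ofBijective f hb) (fun i : Fin a => (i : ℕ))
  have h2 := (Finset.sum_eq_sum_iff_of_le (s := (Finset.univ : Finset (Fin a)))
    (f := fun i : Fin a => (i : ℕ)) (g := fun i => ((f i : Fin a) : ℕ))
    (fun i _ => h i)).1 h1.symm
  intro i
  exact Fin.ext (h2 i (Finset.mem_univ i)).symm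

/-- The transfer is forced. -/
lemma forced {a K : ℕ} (h : K + 2 ≤ a) (t : Fin K → Equiv.Perm (Fin a))
    (hb : ∀ l, Function.Bijective ((stC a K h).eta t l)) :
    ∀ (n : ℕ) (l : Fin (K + 2)), (l : ℕ) = n → ∀ i, (stC a K h).eta t l i = i := by
  intro n
  induction n using Nat.strong_induction_on with
  | _ n ih =>
  intro l hl
  apply eq_id_of_le _ (hb l).1
  intro i
  by_cases h1 : (i : ℕ) + 1 < (l : ℕ)
  · have hl2 := l.2
    have hκ : K + 1 - (l : ℕ) + (i : ℕ) < K := by omega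
    have h2 := stC_om_some h h1
    rw [Cfg.eta_some h2]
    have h3 : (stC a K h).nD l ⟨K + 1 - (l : ℕ) + (i : ℕ), hκ⟩ = i := by
      apply Fin.ext
      show K + 1 - (l : ℕ) + (i : ℕ) + (l : ℕ) - (K + 1) = (i : ℕ)
      omega
    rw [h3]
    by_contra hcon
    rw [not_le] at hcon
    set s := t ⟨K + 1 - (l : ℕ) + (i : ℕ), hκ⟩ i with hs
    -- the earlier column with the letter `s`
    have hsi : (s : ℕ) < (i : ℕ) := hcon
    have hl'b : (l : ℕ) + (s : ℕ) - (i : ℕ) < K + 2 := by omega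
    have h4 : (s : ℕ) + 1 < ((⟨(l : ℕ) + (s : ℕ) - (i : ℕ), hl'b⟩ : Fin (K + 2)) : ℕ) := by
      show (s : ℕ) + 1 < (l : ℕ) + (s : ℕ) - (i : ℕ)
      omega
    have h5 := ih ((l : ℕ) + (s : ℕ) - (i : ℕ)) (by omega)
      ⟨(l : ℕ) + (s : ℕ) - (i : ℕ), hl'b⟩ rfl s
    rw [Cfg.eta_some (stC_om_some h h4)] at h5
    have h6 : (⟨K + 1 - ((⟨(l : ℕ) + (s : ℕ) - (i : ℕ), hl'b⟩ : Fin (K + 2)) : ℕ) + (s : ℕ), by
        show K + 1 - ((l : ℕ) + (s : ℕ) - (i : ℕ)) + (s : ℕ) < K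
        omega⟩ : Fin K) = ⟨K + 1 - (l : ℕ) + (i : ℕ), hκ⟩ := by
      apply Fin.ext
      show K + 1 - ((l : ℕ) + (s : ℕ) - (i : ℕ)) + (s : ℕ) = K + 1 - (l : ℕ) + (i : ℕ)
      omega
    rw [h6] at h5
    have h7 : (stC a K h).nD ⟨(l : ℕ) + (s : ℕ) - (i : ℕ), hl'b⟩
        ⟨K + 1 - (l : ℕ) + (i : ℕ), hκ⟩ = s := by
      apply Fin.ext
      show K + 1 - (l : ℕ) + (i : ℕ) + ((l : ℕ) + (s : ℕ) - (i : ℕ)) - (K + 1) = (s : ℕ)
      omega
    rw [h7] at h5
    have h8 : s = i := (t ⟨K + 1 - (l : ℕ) + (i : ℕ), hκ⟩).injective (h5.trans hs)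
    rw [h8] at hsi
    exact lt_irrefl _ hsi
  · rw [Cfg.eta_none (stC_om_none h h1)]

/-- The letters below the diagonal stay. -/
lemma forced' {a K : ℕ} (h : K + 2 ≤ a) (t : Fin K → Equiv.Perm (Fin a))
    (hb : ∀ l, Function.Bijective ((stC a K h).eta t l)) (κ : Fin K) (s : Fin a)
    (hs : (s : ℕ) ≤ (κ : ℕ)) : t κ s = s := by
  have hκ := κ.2
  have hl : K + 1 + (s : ℕ) - (κ : ℕ) < K + 2 := by omega
  have h1 := forced h t hb _ ⟨K + 1 + (s : ℕ) - (κ : ℕ), hl⟩ rfl s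
  have h2 : (s : ℕ) + 1 < ((⟨K + 1 + (s : ℕ) - (κ : ℕ), hl⟩ : Fin (K + 2)) : ℕ) := by
    show (s : ℕ) + 1 < K + 1 + (s : ℕ) - (κ : ℕ)
    omega
  rw [Cfg.eta_some (stC_om_some h h2)] at h1
  have h3 : (⟨K + 1 - ((⟨K + 1 + (s : ℕ) - (κ : ℕ), hl⟩ : Fin (K + 2)) : ℕ) + (s : ℕ), by
      show K + 1 - (K + 1 + (s : ℕ) - (κ : ℕ)) + (s : ℕ) < K
      omega⟩ : Fin K) = κ := by
    apply Fin.ext
    show K + 1 - (K + 1 + (s : ℕ) - (κ : ℕ)) + (s : ℕ) = (κ : ℕ)
    omega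
  rw [h3] at h1
  have h4 : (stC a K h).nD ⟨K + 1 + (s : ℕ) - (κ : ℕ), hl⟩ κ = s := by
    apply Fin.ext
    show (κ : ℕ) + (K + 1 + (s : ℕ) - (κ : ℕ)) - (K + 1) = (s : ℕ)
    omega
  rw [h4] at h1
  exact h1

end Vale.Agent.P181.H872
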