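import Vale.Agent.P181.H872.PlaceE

set_option autoImplicit false
set_option linter.unusedSectionVars false

/-!
# P181: the staircase placement, evaluation (helper872)
-/

namespace Vale.Agent.P181.H872

open Vale.Agent.P181 Vale.Agent.P181.H280 Vale.Agent.P181.H73 Vale.Agent.P181.H270 Finset

variable {A : Type*} [CommRing A] [Algebra ℂ A]

section Place

variable {a K : ℕ}

/-- The letters of the `D_κ`. -/
def BDE (w : Fin K → A) (κ : Fin K) (n : Fin a) : A := if (n : ℕ) ≤ (κ : ℕ) then 1 else w κ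

/-- The letters of the `G_i`. -/
def ZE (u : Fin a → Fin a → A) (i n : Fin a) : A :=
  if (n : ℕ) < min (i : ℕ) K + 2 then 1 else u i n

/-- The base array. -/
def BE (w : Fin K → A) (u : Fin a → Fin a → A) :
    (Fin K ⊕ (Fin a × Fin (0 + 1))) × Fin a → A := fun pos =>
  Sum.elim (fun κ => BDE w κ pos.2) (fun r => ZE (K := K) u r.1 pos.2) pos.1

/-- The contents of the `G_i`. -/
def WE (K : ℕ) (u : Fin a → Fin a → A) (i : Fin a) : A := ∏ n, ZE (K := K) u i n

lemma BE_pos (h : K + 2 ≤ a) (w : Fin K → A) (u : Fin a → Fin a → A) (l : Fin (K + 2))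
    (i : Fin a) : BE w u ((stC a K h).pos 0 l i) = 1 := by
  have hl := l.2
  by_cases h1 : (i : ℕ) + 1 < (l : ℕ)
  · rw [Cfg.pos_some (stC_om_some h h1)]
    show (if K + 1 - (l : ℕ) + (i : ℕ) + (l : ℕ) - (K + 1) ≤ K + 1 - (l : ℕ) + (i : ℕ) then
      (1 : A) else _) = 1
    rw [if_pos]
    omega
  · rw [Cfg.pos_none (stC_om_none h h1)]
    show (if (l : ℕ) < min (i : ℕ) K + 2 then (1 : A) else _) = 1
    rw [if_pos]
    omega

lemma BE_mem (h : K + 2 ≤ a) (L : Submodule ℂ A) (w : Fin K → A) (hw : ∀ κ, w κ ∈ L)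
    (u : Fin a → Fin a → A) (hu : ∀ i n, u i n ∈ L)
    (pos : (Fin K ⊕ (Fin a × Fin (0 + 1))) × Fin a)
    (hpos : ∀ l i, pos ≠ (stC a K h).pos 0 l i) : BE w u pos ∈ L := by
  obtain ⟨r, n⟩ := pos
  rcases r with κ | ⟨i, j⟩
  · show (if (n : ℕ) ≤ (κ : ℕ) then (1 : A) else w κ) ∈ L
    by_cases hn : (n : ℕ) ≤ (κ : ℕ)
    · exfalso
      have hκ := κ.2
      have hl : K + 1 + (n : ℕ) - (κ : ℕ) < K + 2 := by omega
      have h2 : (n : ℕ) + 1 < ((⟨K + 1 + (n : ℕ) - (κ : ℕ), hl⟩ : Fin (K + 2)) : ℕ) := by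
        show (n : ℕ) + 1 < K + 1 + (n : ℕ) - (κ : ℕ)
        omega
      apply hpos ⟨K + 1 + (n : ℕ) - (κ : ℕ), hl⟩ n
      rw [Cfg.pos_some (stC_om_some h h2)]
      have h3 : (⟨K + 1 - ((⟨K + 1 + (n : ℕ) - (κ : ℕ), hl⟩ : Fin (K + 2)) : ℕ) + (n : ℕ), by
          show K + 1 - (K + 1 + (n : ℕ) - (κ : ℕ)) + (n : ℕ) < K
          omega⟩ : Fin K) = κ := by
        apply Fin.ext
        show K + 1 - (K + 1 + (n : ℕ) - (κ : ℕ)) + (n : ℕ) = (κ : ℕ)
        omega
      rw [h3]
      have h4 : (stC a K h).nD ⟨K + 1 + (n : ℕ) - (κ : ℕ), hl⟩ κ = n := by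
        apply Fin.ext
        show (κ : ℕ) + (K + 1 + (n : ℕ) - (κ : ℕ)) - (K + 1) = (n : ℕ)
        omega
      rw [h4]
    · rw [if_neg hn]
      exact hw κ
  · show (if (n : ℕ) < min (i : ℕ) K + 2 then (1 : A) else u i n) ∈ L
    by_cases hn : (n : ℕ) < min (i : ℕ) K + 2
    · exfalso
      have hl : (n : ℕ) < K + 2 := by omega
      apply hpos ⟨(n : ℕ), hl⟩ i
      have h2 : ¬ (i : ℕ) + 1 < ((⟨(n : ℕ), hl⟩ : Fin (K + 2)) : ℕ) := by
        show ¬ (i : ℕ) + 1 < (n : ℕ)
        omega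
      rw [Cfg.pos_none (stC_om_none h h2)]
      have hj : j = 0 := Subsingleton.elim (α := Fin 1) _ _
      rw [hj]
      rfl
    · rw [if_neg hn]
      exact hu i n

/-- The contents of the slots. -/
lemma cont_BE (w : Fin K → A) (u : Fin a → Fin a → A) (ε : Equiv.Perm (Fin K))
    (e' : Equiv.Perm (Fin a × Fin (0 + 1))) (σ : Fin K → Equiv.Perm (Fin a)) (p : Fin a) :
    cont (slot (Equiv.sumCongr ε e') σ) (BE w u) p =
      (∏ κ, ∏ n, (if slot (Equiv.sumCongr ε e') σ (.inl κ, n) = p then BDE w κ n else 1)) *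
        ∏ r : Fin a × Fin (0 + 1), (if (e'.symm r).1 = p then WE K u r.1 else 1) := by
  rw [cont, Fintype.prod_prod_type, Fintype.prod_sum_type]
  congr 1
  apply Finset.prod_congr rfl
  intro r _
  by_cases h : (e'.symm r).1 = p
  · rw [if_pos h]
    apply Finset.prod_congr rfl
    intro n _
    rw [Cfg.slot_sum_inr, if_pos h]
    rfl
  · rw [if_neg h]
    apply Finset.prod_eq_one
    intro n _
    rw [Cfg.slot_sum_inr, if_neg h]

/-- The value of a good placement. -/
noncomputable def XE (φ : MultilinearMap ℂ (fun _ : Fin a => A) ℂ) (w : Fin K → A)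
    (u : Fin a → Fin a → A) : ℂ :=
  φ (fun i => (∏ κ : Fin K, if (κ : ℕ) < (i : ℕ) then w κ else 1) * WE K u i)

/-- The term of a distribution. -/
lemma term_cls (h : K + 2 ≤ a) (φ : MultilinearMap ℂ (fun _ : Fin a => A) ℂ) (w : Fin K → A)
    (u : Fin a → Fin a → A) (t : Fin K → Equiv.Perm (Fin a)) :
    (stC a K h).term φ (BDE w) (WE K u) t = 0 ∨
      (stC a K h).term φ (BDE w) (WE K u) t = XE φ w u := by
  classical
  rw [Cfg.term]
  by_cases hb : ∀ l, Function.Bijective ((stC a K h).eta t l)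
  · right
    rw [dif_pos hb]
    have h1 : ∀ l, Equiv.ofBijective _ (hb l) = 1 := by
      intro l
      ext i
      show (((stC a K h).eta t l i : Fin a) : ℕ) = (i : ℕ)
      rw [forced h t hb _ l rfl i]
    have h2 : ∏ l, ((Equiv.Perm.sign (Equiv.ofBijective _ (hb l)) : ℤ) : ℂ) = 1 := by
      apply Finset.prod_eq_one
      intro l _
      rw [h1 l]
      simp
    rw [h2, one_mul, XE]
    congr 1
    funext i
    congr 1
    apply Finset.prod_congr rfl
    intro κ _
    rw [BDE]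
    by_cases hi : (κ : ℕ) < (i : ℕ)
    · rw [if_pos hi, if_neg]
      intro h3
      have h4 := forced' h t hb κ _ h3
      rw [Equiv.apply_symm_apply] at h4
      rw [← h4] at h3
      omega
    · rw [if_neg hi, if_pos]
      have h4 := forced' h t hb κ i (by omega)
      have h5 : (t κ).symm i = i := by rw [Equiv.symm_apply_eq, h4]
      rw [h5]
      omega
  · left
    rw [dif_neg hb]

open Classical in
/-- All terms are `0` or the good value. -/
lemma master_cls (h : K + 2 ≤ a) {φ : MultilinearMap ℂ (fun _ : Fin a => A) ℂ}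
    (hφ : IsSgn (K + 2) φ) (w : Fin K → A) (u : Fin a → Fin a → A)
    (e : Equiv.Perm (Fin K ⊕ (Fin a × Fin (0 + 1)))) (σ : Fin K → Equiv.Perm (Fin a)) :
    (if hh : ∀ c, Function.Bijective (fun i => slot e σ ((stC a K h).pos 0 c i)) then
        (∏ c, ((Equiv.Perm.sign (Equiv.ofBijective _ (hh c)) : ℤ) : ℂ)) *
          φ (cont (slot e σ) (BE w u)) else 0) = 0 ∨
    (if hh : ∀ c, Function.Bijective (fun i => slot e σ ((stC a K h).pos 0 c i)) then
        (∏ c, ((Equiv.Perm.sign (Equiv.ofBijective _ (hh c)) : ℤ) : ℂ)) *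
          φ (cont (slot e σ) (BE w u)) else 0) = XE φ w u := by
  by_cases hh : ∀ c, Function.Bijective (fun i => slot e σ ((stC a K h).pos 0 c i))
  · obtain ⟨ε, e', rfl⟩ := Cfg.surv_all (by omega : 0 < a) (stC_stair h) (Or.inr rfl) hh
    let π : Equiv.Perm (Fin a) :=
      (Equiv.prodUnique (Fin a) (Fin 1)).symm.trans
        ((show Equiv.Perm (Fin a × Fin 1) from e'.symm).trans (Equiv.prodUnique (Fin a) (Fin 1)))
    have hπ : ∀ i, (e'.symm (i, 0)).1 = π i := by
      intro i
      rfl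
    let t : Fin K → Equiv.Perm (Fin a) := fun κ => π⁻¹ * (σ (ε.symm κ))⁻¹
    have hσ : (fun j => (π * t (ε j))⁻¹) = σ := by
      funext j
      show (π * (π⁻¹ * (σ (ε.symm (ε j)))⁻¹))⁻¹ = σ j
      rw [Equiv.symm_apply_apply, mul_inv_cancel_left, inv_inv]
    have hZ : ∀ p, ∏ r : Fin a × Fin (0 + 1), (if (e'.symm r).1 = p then WE K u r.1 else 1) =
        WE K u (π.symm p) := by
      intro p
      rw [Finset.prod_eq_single (π.symm p, 0)]
      · rw [if_pos]
        rw [hπ, Equiv.apply_symm_apply]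
      · rintro ⟨i, j⟩ _ hr
        have hj : j = 0 := Subsingleton.elim (α := Fin 1) _ _
        subst hj
        rw [if_neg]
        intro h5
        apply hr
        rw [hπ] at h5
        rw [← h5, Equiv.symm_apply_apply]
      · intro h5
        exact absurd (Finset.mem_univ _) h5
    have h1 := Cfg.term_eq (C := stC a K h) (q := 0) hφ (BDE w)
      (fun r : Fin a × Fin (0 + 1) => WE K u r.1) (WE K u) ε e' π hπ hZ t
    have h2 : (if hh : ∀ c, Function.Bijective
          (fun i => slot (Equiv.sumCongr ε e') σ ((stC a K h).pos 0 c i)) then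
        (∏ c, ((Equiv.Perm.sign (Equiv.ofBijective _ (hh c)) : ℤ) : ℂ)) *
          φ (cont (slot (Equiv.sumCongr ε e') σ) (BE w u)) else 0) =
        (stC a K h).term φ (BDE w) (WE K u) t := by
      rw [← h1]
      have h3 : cont (slot (Equiv.sumCongr ε e') σ) (BE w u) = fun p =>
          (∏ κ, ∏ n, (if slot (Equiv.sumCongr ε e') (fun j => (π * t (ε j))⁻¹) (.inl κ, n) = p
            then BDE w κ n else 1)) *
          ∏ r : Fin a × Fin (0 + 1), (if (e'.symm r).1 = p then WE K u r.1 else 1) := by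
        funext p
        rw [hσ, cont_BE]
      rw [h3]
      simp only [hσ]
    rw [h2]
    exact term_cls h φ w u t
  · left
    rw [dif_neg hh]

/-- A sum of terms `0` or `X`, one of them `X`. -/
lemma sum_zero_or {ι : Type*} [Fintype ι] (f : ι → ℂ) (X : ℂ) (h : ∀ i, f i = 0 ∨ f i = X)
    (i0 : ι) (hi0 : f i0 = X) (h0 : ∑ i, f i = 0) : X = 0 := by
  classical
  by_contra hX
  have h1 : ∀ i, f i = if f i = X then X else 0 := by
    intro i
    by_cases h2 : f i = X
    · rw [if_pos h2, h2]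
    · rw [if_neg h2]
      exact (h i).resolve_right h2
  rw [Finset.sum_congr rfl (fun i _ => h1 i), ← Finset.sum_filter, Finset.sum_const,
    nsmul_eq_mul] at h0
  have h3 := (mul_eq_zero.1 h0).resolve_right hX
  rw [Nat.cast_eq_zero, Finset.card_eq_zero] at h3
  have h4 : i0 ∈ (univ.filter fun i => f i = X) := Finset.mem_filter.2 ⟨Finset.mem_univ _, hi0⟩
  rw [h3] at h4
  exact absurd h4 (Finset.notMem_empty _)

open Classical in
/-- The witness. -/
lemma witness (h : K + 2 ≤ a) (φ : MultilinearMap ℂ (fun _ : Fin a => A) ℂ) (w : Fin K → A)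
    (u : Fin a → Fin a → A) :
    (if hh : ∀ c, Function.Bijective (fun i =>
          slot (Equiv.sumCongr (1 : Equiv.Perm (Fin K)) (1 : Equiv.Perm (Fin a × Fin (0 + 1))))
          (fun _ : Fin K => (1 : Equiv.Perm (Fin a))) ((stC a K h).pos 0 c i)) then
        (∏ c, ((Equiv.Perm.sign (Equiv.ofBijective _ (hh c)) : ℤ) : ℂ)) *
          φ (cont (slot (Equiv.sumCongr (1 : Equiv.Perm (Fin K))
            (1 : Equiv.Perm (Fin a × Fin (0 + 1))))
            (fun _ : Fin K => (1 : Equiv.Perm (Fin a)))) (BE w u)) else 0) = XE φ w u := by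
  have hid : ∀ (c : Fin (K + 2)) (i : Fin a),
      slot (Equiv.sumCongr (1 : Equiv.Perm (Fin K)) (1 : Equiv.Perm (Fin a × Fin (0 + 1))))
      (fun _ : Fin K => (1 : Equiv.Perm (Fin a))) ((stC a K h).pos 0 c i) = i := by
    intro c i
    by_cases h2 : (i : ℕ) + 1 < (c : ℕ)
    · rw [Cfg.pos_some (stC_om_some h h2)]
      apply Fin.ext
      show K + 1 - (c : ℕ) + (i : ℕ) + (c : ℕ) - (K + 1) = (i : ℕ)
      have := c.2
      omega
    · rw [Cfg.pos_none (stC_om_none h h2)]
      rfl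
  have hh : ∀ c, Function.Bijective (fun i =>
      slot (Equiv.sumCongr (1 : Equiv.Perm (Fin K)) (1 : Equiv.Perm (Fin a × Fin (0 + 1))))
      (fun _ : Fin K => (1 : Equiv.Perm (Fin a))) ((stC a K h).pos 0 c i)) := by
    intro c
    have h1 : (fun i => slot (Equiv.sumCongr (1 : Equiv.Perm (Fin K))
        (1 : Equiv.Perm (Fin a × Fin (0 + 1))))
        (fun _ : Fin K => (1 : Equiv.Perm (Fin a))) ((stC a K h).pos 0 c i)) = id := by
      funext i
      exact hid c i
    rw [h1]
    exact Function.bijective_id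
  rw [dif_pos hh]
  have h1 : ∀ c, Equiv.ofBijective _ (hh c) = 1 := by
    intro c
    ext i
    show ((slot _ _ ((stC a K h).pos 0 c i) : Fin a) : ℕ) = (i : ℕ)
    rw [hid c i]
  have h2 : ∏ c, ((Equiv.Perm.sign (Equiv.ofBijective _ (hh c)) : ℤ) : ℂ) = 1 := by
    apply Finset.prod_eq_one
    intro c _
    rw [h1 c]
    simp
  rw [h2, one_mul, XE]
  congr 1
  funext p
  rw [cont_BE]
  congr 1
  · apply Finset.prod_congr rfl
    intro κ _
    rw [Finset.prod_eq_single p]
    · rw [Cfg.slot_sum_inl, if_pos (show (1 : Equiv.Perm (Fin a)).symm p = p from rfl), BDE]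
      by_cases hp : (κ : ℕ) < (p : ℕ)
      · rw [if_pos hp, if_neg (by omega)]
      · rw [if_neg hp, if_pos (by omega)]
    · intro n _ hn
      rw [Cfg.slot_sum_inl, if_neg]
      exact hn
    · intro h5
      exact absurd (Finset.mem_univ _) h5
  · rw [Finset.prod_eq_single (p, 0)]
    · exact if_pos rfl
    · rintro ⟨i, j⟩ _ hr
      have hj : j = 0 := Subsingleton.elim (α := Fin 1) _ _
      subst hj
      rw [if_neg]
      intro h5
      apply hr
      have h6 : i = p := h5
      rw [h6]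
    · intro h5
      exact absurd (Finset.mem_univ _) h5

/-- The relation, for products of letters. -/
lemma XE_zero (h : K + 2 ≤ a) (L : Submodule ℂ A)
    (F : MultilinearMap ℂ (fun _ : Fin a => A) ℂ) (hs : IsSymm F) (hF : Rel K (0 + 1) L F)
    (x : Fin a → A) (hx : ∀ i, x i ∈ L) (w : Fin K → A) (hw : ∀ κ, w κ ∈ L)
    (u : Fin a → Fin a → A) (hu : ∀ i n, u i n ∈ L) :
    XE ((altC x)^[K + 2] F) w u = 0 := by
  classical
  have hφ : IsSgn (K + 2) ((altC x)^[K + 2] F) := isSgn_iter hs x (K + 2)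
  have h1 := master (N := K + 2) L F hF x hx (fun c i => (stC a K h).pos 0 c i)
    (fun c i c' i' hcc => Cfg.pos_inj hcc) (BE w u) (fun c i => BE_pos h w u c i)
    (fun pos hpos => BE_mem h L w hw u hu pos hpos)
  rw [← Fintype.sum_prod_type'] at h1
  exact sum_zero_or _ _ (fun i => master_cls h hφ w u i.1 i.2)
    (Equiv.sumCongr (1 : Equiv.Perm (Fin K)) (1 : Equiv.Perm (Fin a × Fin (0 + 1))),
      fun _ : Fin K => (1 : Equiv.Perm (Fin a))) (witness h _ w u) h1

/-- Products of letters span the powers. -/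
lemma pow_le_letters (L : Submodule ℂ A) {c : ℕ} (hc : c ≤ a) : L ^ (a - c) ≤
    Submodule.span ℂ {y | ∃ u : Fin a → A, (∀ n, u n ∈ L) ∧
      y = ∏ n : Fin a, if (n : ℕ) < c then 1 else u n} := by
  have h1 := span_pow_eq (fun z : L => (z : A)) (a - c)
  rw [show Submodule.span ℂ (Set.range (fun z : L => (z : A))) = L from by
    rw [show Set.range (fun z : L => (z : A)) = (L : Set A) from Subtype.range_coe]
    exact Submodule.span_eq L] at h1
  refine h1.trans (Submodule.span_mono ?_)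
  rintro _ ⟨g, rfl⟩
  refine ⟨fun n => if h : (n : ℕ) - c < a - c then (g ⟨(n : ℕ) - c, h⟩ : A) else 0, ?_, ?_⟩
  · intro n
    show (if h : (n : ℕ) - c < a - c then (g ⟨(n : ℕ) - c, h⟩ : A) else 0) ∈ L
    split_ifs with h
    · exact (g _).2
    · exact L.zero_mem
  · let G : ℕ → A := fun n => if n < c then 1 else
      if h : n - c < a - c then (g ⟨n - c, h⟩ : A) else 0
    have h2 : (∏ n : Fin a, if (n : ℕ) < c then (1 : A) else
        if h : (n : ℕ) - c < a - c then (g ⟨(n : ℕ) - c, h⟩ : A) else 0) =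
        ∏ n ∈ Finset.range a, G n := by
      rw [← Fin.prod_univ_eq_prod_range]
    show _ = ∏ n : Fin a, if (n : ℕ) < c then (1 : A) else
        if h : (n : ℕ) - c < a - c then (g ⟨(n : ℕ) - c, h⟩ : A) else 0
    have h5 : ∏ n ∈ Finset.range a, G n = ∏ n ∈ Finset.range (c + (a - c)), G n := by
      rw [Nat.add_sub_cancel' hc]
    rw [h2, h5, Finset.prod_range_add]
    have h3 : ∏ n ∈ Finset.range c, G n = 1 := by
      apply Finset.prod_eq_one
      intro n hn
      rw [Finset.mem_range] at hn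
      show (if n < c then (1 : A) else _) = 1
      rw [if_pos hn]
    rw [h3, one_mul, ← Fin.prod_univ_eq_prod_range (fun n => G (c + n)) (a - c)]
    apply Finset.prod_congr rfl
    intro j _
    show (g j : A) = if c + (j : ℕ) < c then (1 : A) else
      if h : c + (j : ℕ) - c < a - c then (g ⟨c + (j : ℕ) - c, h⟩ : A) else 0
    rw [if_neg (by omega), dif_pos (by have := j.2; omega)]
    congr 2
    apply Fin.ext
    show (j : ℕ) = c + (j : ℕ) - c
    omega

/-- **The placement**: the relation of the hybrid map `A_K` gives `(E_K)`. -/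
theorem place_E {k : ℕ} (h : k + 3 ≤ a) (L : Submodule ℂ A)
    (F : MultilinearMap ℂ (fun _ : Fin a => A) ℂ) (hs : IsSymm F) (hF : Rel (k + 1) 1 L F)
    (x : Fin a → A) (hx : ∀ i, x i ∈ L) : RelE L k (a - 2) ((altC x)^[k + 3] F) := by
  intro w hw v hv
  let Φ : MultilinearMap ℂ (fun _ : Fin a => A) ℂ :=
    ((altC x)^[k + 3] F).compLinearMap (fun p => LinearMap.mulLeft ℂ
      (∏ i : Fin (k + 1), if (i : ℕ) < (p : ℕ) then w i else 1))
  show Φ v = 0
  apply multilinear_zero_of_spans Φ (fun p : Fin a => {y | ∃ u : Fin a → A, (∀ n, u n ∈ L) ∧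
      y = ∏ n : Fin a, if (n : ℕ) < min (p : ℕ) (k + 1) + 2 then 1 else u n})
  · intro y hy
    choose u hu hy using hy
    have h1 := XE_zero (K := k + 1) (by omega) L F hs hF x hx w hw u (fun i n => hu i n)
    rw [XE] at h1
    show ((altC x)^[k + 3] F) (fun p => (∏ i : Fin (k + 1), if (i : ℕ) < (p : ℕ) then w i else 1) *
      y p) = 0
    rw [← h1]
    congr 1
    funext p
    rw [hy p]
    rfl
  · intro p
    apply pow_le_letters L (c := min (p : ℕ) (k + 1) + 2) (by omega)
    have h2 : a - (min (p : ℕ) (k + 1) + 2) = a - 2 - min (p : ℕ) (k + 1) := by omega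
    rw [h2]
    exact hv p

/-- **The column property of `alt^(k+3) F`**, `b = a + k + 1`. -/
theorem col_of_rel {k j : ℕ} (ha : k + 4 ≤ a ∨ (k = 0 ∧ 3 ≤ a)) (hj : j + 3 = a)
    (L : Submodule ℂ A) (F : MultilinearMap ℂ (fun _ : Fin a => A) ℂ) (hs : IsSymm F)
    (hF : Rel (k + 1) 1 L F) (x : Fin a → A) (hx : ∀ i, x i ∈ L) :
    Col L j ((altC x)^[k + 3] F) := by
  apply colA L ha hj _ (zInv_of_isSgn (isSgn_iter hs x (k + 3)))
  have h1 := place_E (k := k) (by omega) L F hs hF x hx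
  rwa [show a - 2 = j + 1 by omega] at h1

end Place

end Vale.Agent.P181.H872
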