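import Vale.Agent.P181.H872.PlaceE2
import Vale.Agent.P181.H73.Asm
import Vale.Agent.P181.H73.TallQ

set_option autoImplicit false

/-!
# P181: `b = a + K`, `1 ≤ K ≤ a - 3`, all shapes with `K + 2 ≤ lam_a < b` (helper872)
-/

open scoped TensorProduct

namespace Vale.Agent.P181.H872

open Vale.Agent.P181 Vale.Agent.P181.H280 Vale.Agent.P181.H73 Finset MvPolynomial

/-- The core, `a = j + 3`, `b = a + k + 1`. -/
theorem tallK_core {j k b : ℕ} (ha : k + 1 ≤ j ∨ k = 0) (lam : Fin (j + 3) → ℕ)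
    (hanti : ∀ i, lam (Fin.last (j + 2)) ≤ lam i) (hlo : k + 3 ≤ lam (Fin.last (j + 2)))
    (hhi : lam (Fin.last (j + 2)) ≤ j + k + 3) (hb : b = j + k + 4)
    (ε : H394.T (k + 1) (j + 3) 1 ≃ Fin b) :
    (∀ x ∈ hwSpace lam (plethAct (j + 3) b (j + 3)),
      H394.hybG ε (Fin (j + 3) → ℂ) x = 0 → x = 0) ∧
      plethMult (j + 3) b (j + 3) lam ≤ plethMult b (j + 3) (j + 3) lam := by
  apply H394.plethMult_le_of_formG
  intro l hx hrel
  have hF : H270.Rel (k + 1) 1 (linS (j + 3)) (formOf l) := fun y hy => hrel y hy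
  set xs : Fin (j + 3) → MvPolynomial (Fin (j + 3)) ℂ := fun i => X i with hxs
  have hxL : ∀ i, xs i ∈ linS (j + 3) := fun i => X_mem_linS _
  have hHW : HWForm xs (fun i => pderiv i)
      (fun b => linS (j + 3) ^ b) b (fun i => (lam i : ℂ)) (formOf l) := by
    have h1 := hwForm_formOf (le_refl (j + 3)) lam l hx
    simpa using h1
  have hcol : Col (linS (j + 3)) j ((altC xs)^[k + 3] (formOf l)) :=
    col_of_rel (by omega) rfl (linS (j + 3)) (formOf l) (formOf_symm l) hF xs hxL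
  obtain ⟨m, hm⟩ : ∃ m, lam (Fin.last (j + 2)) = m + (k + 3) :=
    ⟨_, (Nat.sub_add_cancel hlo).symm⟩
  obtain ⟨i, hi⟩ : ∃ i, j = i + m := ⟨j - m, by omega⟩
  have hcol2 : Col (linS (j + 3)) i ((altC xs)^[m + (k + 3)] (formOf l)) := by
    rw [Function.iterate_add_apply]
    apply Col.altC_iter hxL
    rw [← hi]
    exact hcol
  apply descent lam (formOf l) (formOf_symm l) hHW (m + (k + 3)) (by omega)
    (fun i => by rw [← hm]; exact hanti i)
  have hb2 : b - (m + (k + 3)) = i + 1 := by omega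
  rw [hb2]
  apply end_zero (c := fun i => (lam i : ℂ) - ((m + (k + 3) : ℕ) : ℂ)) _ _ hcol2
  · exact hwForm_iter lam (formOf l) hHW (m + (k + 3)) (i + 1) (by omega)
  · rw [hm, sub_self]

/-- **Foulkes' inequality for `(a, a + k + 1)`, `k + 4 ≤ a`, and every shape with
`k + 3 ≤ lam_a < a + k + 1`**, any `n`. -/
theorem tallK (a k n : ℕ) (ha : k + 4 ≤ a ∨ (k = 0 ∧ 3 ≤ a)) (han : a ≤ n) (lam : Fin n → ℕ)
    (hlo : ∀ i : Fin n, (i : ℕ) < a → k + 3 ≤ lam i)
    (hhi : ∃ i : Fin n, (i : ℕ) < a ∧ lam i < a + k + 1) :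
    plethMult a (a + k + 1) n lam ≤ plethMult (a + k + 1) a n lam := by
  apply all_n a (a + k + 1) n han lam
  intro mu hanti _ hmu
  obtain ⟨j, rfl⟩ : ∃ j, a = j + 3 := ⟨a - 3, by omega⟩
  have hlast : ∀ i : Fin (j + 3), mu (Fin.last (j + 2)) ≤ mu i := fun i =>
    hanti (Fin.le_last i)
  refine (tallK_core (by omega) mu hlast ?_ ?_ (by omega)
    ((H394.numE (k + 1) (j + 3) 1).trans (finCongr (by ring)))).2
  · rw [hmu]
    apply hlo
    have := (Fin.last (j + 2)).2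
    simp
  · obtain ⟨i, hi, hi2⟩ := hhi
    have h1 := hlast ⟨i, hi⟩
    have h2 : mu ⟨i, hi⟩ = lam i := by
      rw [hmu]
      rfl
    omega

/-- The same, in terms of `b`: `a < b ≤ 2 a - 3`, `b - a + 2 ≤ lam_a < b`. -/
theorem tall_upper (a b n : ℕ) (hab : a < b) (hb : b + 3 ≤ 2 * a ∨ (b = a + 1 ∧ 3 ≤ a))
    (han : a ≤ n) (lam : Fin n → ℕ)
    (hlo : ∀ i : Fin n, (i : ℕ) < a → b + 2 ≤ lam i + a)
    (hhi : ∃ i : Fin n, (i : ℕ) < a ∧ lam i < b) :
    plethMult a b n lam ≤ plethMult b a n lam := by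
  obtain ⟨k, rfl⟩ : ∃ k, b = a + k + 1 := ⟨b - a - 1, by omega⟩
  refine tallK a k n (by omega) han lam (fun i hi => ?_) hhi
  have := hlo i hi
  omega

end Vale.Agent.P181.H872
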